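import Vale.Agent.P050.H799.Hom

/-! The inequality for one copy of each class (helper file for `P050.SemiCovers`). -/

namespace Vale.Agent.P050.H799

open Finset
open scoped Classical

lemma avg_pi_prod {I X : Type} [Fintype I] [Fintype X] (f : I → X → ℝ) :
    (avg fun z : I → X => ∏ i, f i (z i)) = ∏ i, avg (f i) := by
  unfold avg
  rw [Fintype.card_fun, Finset.prod_div_distrib, Finset.prod_const, Finset.card_univ]
  push_cast
  congr 1
  have := (Finset.prod_univ_sum (fun _ : I => (univ : Finset X)) f).symm
  rw [Fintype.piFinset_univ] at this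
  exact this

/-- independence of the coordinates in `S` and outside -/
lemma avg_split {I X : Type} [Fintype I] [Fintype X] [Nonempty X] (S : I → Prop)
    (φ ψ : (I → X) → ℝ) (hφ : ∀ z z', (∀ i, S i → z i = z' i) → φ z = φ z')
    (hψ : ∀ z z', (∀ i, ¬ S i → z i = z' i) → ψ z = ψ z') :
    (avg fun z => φ z * ψ z) = avg φ * avg ψ := by
  have hc : (Fintype.card (I → X) : ℝ) ≠ 0 := by
    exact_mod_cast Fintype.card_ne_zero
  let e : (I → X) × (I → X) ≃ (I → X) × (I → X) :=
    { toFun := fun p => (fun i => if S i then p.1 i else p.2 i,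
        fun i => if S i then p.2 i else p.1 i)
      invFun := fun p => (fun i => if S i then p.1 i else p.2 i,
        fun i => if S i then p.2 i else p.1 i)
      left_inv := fun p => by
        ext i <;> by_cases h : S i <;> simp [h]
      right_inv := fun p => by
        ext i <;> by_cases h : S i <;> simp [h] }
  have h1 : avg φ * avg ψ = avg fun p : (I → X) × (I → X) => φ p.1 * ψ p.2 := by
    rw [avg_prod]
    unfold avg
    simp only [← Finset.mul_sum]
    rw [← Finset.sum_div, ← Finset.sum_mul]
    field_simp
  have h2 : (avg fun p : (I → X) × (I → X) => φ p.1 * ψ p.2) =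
      avg fun p : (I → X) × (I → X) => φ p.1 * ψ p.1 := by
    rw [← avg_equiv e (fun p : (I → X) × (I → X) => φ p.1 * ψ p.1)]
    congr 1
    funext p
    congr 1
    · exact hφ _ _ fun i hi => by simp [e, hi]
    · exact hψ _ _ fun i hi => by simp [e, hi]
  rw [h1, h2, avg_prod]
  unfold avg
  simp only [Finset.sum_const, Finset.card_univ, nsmul_eq_mul]
  congr 1
  refine Finset.sum_congr rfl fun z _ => ?_
  field_simp

lemma avg_mul {Ω : Type} [Fintype Ω] (f : Ω → ℝ) (c : ℝ) :
    (avg fun x => f x * c) = avg f * c := by
  unfold avg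
  rw [← Finset.sum_mul]
  ring

lemma avg_le_one {Ω : Type} [Fintype Ω] {f : Ω → ℝ} (h : ∀ x, f x ≤ 1) : avg f ≤ 1 := by
  unfold avg
  refine div_le_one_of_le₀ ?_ (by positivity)
  calc ∑ x, f x ≤ ∑ _x : Ω, (1 : ℝ) := sum_le_sum fun x _ => h x
    _ = _ := by simp

lemma avg_sum {Ω C : Type} [Fintype Ω] [Fintype C] (f : C → Ω → ℝ) :
    (avg fun x => ∑ b, f b x) = ∑ b, avg (f b) := by
  unfold avg
  rw [Finset.sum_comm, Finset.sum_div]

lemma avg_pos {Ω : Type} [Fintype Ω] {f : Ω → ℝ} (h : ∀ x, 0 ≤ f x) (x : Ω) (hx : 0 < f x) :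
    0 < avg f := by
  haveI : Nonempty Ω := ⟨x⟩
  unfold avg
  have : (0 : ℝ) < Fintype.card Ω := by exact_mod_cast Fintype.card_pos
  exact div_pos (Finset.sum_pos' (fun x _ => h x) ⟨x, Finset.mem_univ _, hx⟩) this

/-- the factor of a vertex with set `N` of neighbours -/
noncomputable def fac {I X : Type} [Fintype I] [Fintype X] (G : SimpleGraph X) (N : I → Prop)
    (z : I → X) : ℝ := avg fun y => ∏ i, if N i then ind G (z i) y else 1

lemma fac_nonneg {I X : Type} [Fintype I] [Fintype X] (G : SimpleGraph X) (N : I → Prop)
    (z : I → X) : 0 ≤ fac G N z :=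
  avg_nonneg fun y => prod_nonneg fun a _ => by
    split_ifs
    · exact ind_nonneg _ _ _
    · exact zero_le_one

lemma fac_pos {I X : Type} [Fintype I] [Fintype X] (G : SimpleGraph X) (N : I → Prop)
    (z : I → X) (y : X) (h : ∀ i, G.Adj (z i) y) : 0 < fac G N z := by
  refine avg_pos (fun y => prod_nonneg fun a _ => by
    split_ifs
    · exact ind_nonneg _ _ _
    · exact zero_le_one) y ?_
  refine prod_pos fun i _ => ?_
  split_ifs
  · simp [ind, h i]
  · norm_num

/-- the bound for a vertex outside the chosen set -/
lemma bound_out {I X : Type} [Fintype I] [Fintype X] [Nonempty X] (G : SimpleGraph X)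
    (N : I → Prop) :
    (avg fun y => avg fun z : I → X => (∏ i, ind G (z i) y) *
      (1 / (fac G N z * (avg fun x => ind G x y) ^ (∑ i, if N i then 0 else 1)))) ≤ 1 := by
  have h1 : ∀ y, (avg fun z : I → X => (∏ i, ind G (z i) y) *
      (1 / (fac G N z * (avg fun x => ind G x y) ^ (∑ i, if N i then 0 else 1)))) ≤
      avg fun z : I → X => (∏ i, if N i then ind G (z i) y else 1) / fac G N z := by
    intro y
    set d : ℝ := avg fun x => ind G x y with hd
    have hd0 : 0 ≤ d := avg_nonneg fun x => ind_nonneg _ _ _
    have e1 : (fun z : I → X => (∏ i, ind G (z i) y) *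
        (1 / (fac G N z * d ^ (∑ i, if N i then 0 else 1)))) =
        fun z : I → X => ((∏ i, if N i then ind G (z i) y else 1) / fac G N z) *
          ((∏ i, if N i then 1 else ind G (z i) y) * (1 / d ^ (∑ i, if N i then 0 else 1))) := by
      funext z
      have : (∏ i, ind G (z i) y) = (∏ i, if N i then ind G (z i) y else 1) *
          (∏ i, if N i then 1 else ind G (z i) y) := by
        rw [← Finset.prod_mul_distrib]
        refine Finset.prod_congr rfl fun i _ => ?_
        split_ifs <;> ring
      rw [this, one_div, mul_inv]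
      ring
    rw [e1, avg_split N]
    · rw [avg_mul, avg_pi_prod (fun i x => if N i then 1 else ind G x y)]
      have e2 : (∏ i, avg fun x => if N i then (1 : ℝ) else ind G x y) =
          d ^ (∑ i, if N i then 0 else 1) := by
        rw [← Finset.prod_pow_eq_pow_sum]
        refine Finset.prod_congr rfl fun i _ => ?_
        by_cases h : N i
        · have hX : (Fintype.card X : ℝ) ≠ 0 := by exact_mod_cast Fintype.card_ne_zero
          simp [h, avg, hX]
        · simp [h, hd]
      rw [e2]
      have h3 : d ^ (∑ i, if N i then 0 else 1) * (1 / d ^ (∑ i, if N i then 0 else 1)) ≤ 1 := by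
        rw [mul_one_div]
        exact div_self_le_one _
      refine mul_le_of_le_one_right (avg_nonneg fun z => div_nonneg (prod_nonneg fun a _ => ?_)
        (fac_nonneg _ _ _)) h3
      split_ifs
      · exact ind_nonneg _ _ _
      · exact zero_le_one
    · intro z z' h
      have e3 : ∀ y', (∏ i, if N i then ind G (z i) y' else 1) =
          ∏ i, if N i then ind G (z' i) y' else 1 := by
        intro y'
        refine Finset.prod_congr rfl fun i _ => ?_
        by_cases hi : N i
        · rw [if_pos hi, if_pos hi, h i hi]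
        · rw [if_neg hi, if_neg hi]
      unfold fac
      simp only [e3]
    · intro z z' h
      have e3 : (∏ i, if N i then 1 else ind G (z i) y) =
          ∏ i, if N i then 1 else ind G (z' i) y := by
        refine Finset.prod_congr rfl fun i _ => ?_
        by_cases hi : N i
        · rw [if_pos hi, if_pos hi]
        · rw [if_neg hi, if_neg hi, h i hi]
      rw [e3]
  refine (avg_mono h1).trans ?_
  rw [avg_comm]
  refine avg_le_one fun z => ?_
  have : (avg fun y => (∏ i, if N i then ind G (z i) y else 1) / fac G N z) =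
      fac G N z / fac G N z := by
    simp only [div_eq_mul_inv]
    rw [avg_mul]
    rfl
  rw [this]
  exact div_self_le_one _

end Vale.Agent.P050.H799
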