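import Vale.Agent.P050.H799.Main

/-! The averaging step with one copy of each vertex (helper file for `P050.SemiCovers`). -/

namespace Vale.Agent.P050.H799

open Finset
open scoped Classical

theorem mainC {A B X : Type} [Fintype A] [Fintype B] [Fintype X] [Nonempty X] (k : A → ℕ)
    (hk : ∀ a, 0 < k a) (τ : B → (A → X) → ℝ) (hτ : ∀ b z, 0 ≤ τ b z)
    (c : B → ∀ a, Fin (k a)) (K : ℕ) (hK : K = ∏ a, k a) :
    (avg fun z => ∏ b, τ b z ^ (1 / (K : ℝ))) ^ K ≤
      avg fun x : (∀ a, Fin (k a) → X) => ∏ b, τ b fun a => x a (c b a) := by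
  haveI : ∀ a, NeZero (k a) := fun a => ⟨(hk a).ne'⟩
  have hKpos : 0 < K := by rw [hK]; exact Finset.prod_pos fun a _ => hk a
  have hKr : (0 : ℝ) < (K : ℝ) := by exact_mod_cast hKpos
  have hcard : Fintype.card (∀ a, Fin (k a)) = K := by simp [hK]
  obtain ⟨q, hq⟩ : ∃ q : (A → X) → ℝ, q = fun z => ∏ b, τ b z ^ (1 / (K : ℝ)) := ⟨_, rfl⟩
  have hq0 : ∀ z, 0 ≤ q z := fun z => by
    rw [hq]; exact prod_nonneg fun b _ => Real.rpow_nonneg (hτ b z) _
  rw [← hq]
  set P : (∀ a, Fin (k a)) → (∀ a, Fin (k a) → X) → ℝ :=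
    fun g x => ∏ b, τ b fun a => x a (c b a + g a) with hP
  have hP0 : ∀ g x, 0 ≤ P g x := fun g x => prod_nonneg fun b _ => hτ b _
  have h1 : ∀ g, avg (P g) = avg fun x : (∀ a, Fin (k a) → X) =>
      ∏ b, τ b fun a => x a (c b a) := fun g =>
    avg_equiv (shift k g) fun x : (∀ a, Fin (k a) → X) => ∏ b, τ b fun a => x a (c b a)
  have h2 : (avg fun x : (∀ a, Fin (k a) → X) => ∏ b, τ b fun a => x a (c b a)) =
      avg fun x => avg fun g => P g x := by
    rw [avg_comm]
    have : (fun g => avg fun x => P g x) = fun _ => avg fun x : (∀ a, Fin (k a) → X) =>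
        ∏ b, τ b fun a => x a (c b a) := funext h1
    rw [this]
    unfold avg
    rw [Finset.sum_const, Finset.card_univ, hcard, nsmul_eq_mul]
    field_simp
  have h4 : ∀ x, (∏ g : (∀ a, Fin (k a)), q fun a => x a (g a)) ≤ avg fun g => P g x := by
    intro x
    have am := Real.geom_mean_le_arith_mean_weighted (univ : Finset (∀ a, Fin (k a)))
      (fun _ => 1 / (K : ℝ)) (fun g => P g x) (fun _ _ => by positivity)
      (by rw [Finset.sum_const, Finset.card_univ, hcard, nsmul_eq_mul]; field_simp)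
      (fun g _ => hP0 g x)
    have e1 : (∏ g : (∀ a, Fin (k a)), q fun a => x a (g a)) = ∏ g, P g x ^ (1 / (K : ℝ)) := by
      simp only [hq, hP]
      rw [Finset.prod_comm]
      have : ∀ g : (∀ a, Fin (k a)), (∏ b, τ b fun a => x a (c b a + g a)) ^ (1 / (K : ℝ)) =
          ∏ b, (τ b fun a => x a (c b a + g a)) ^ (1 / (K : ℝ)) := fun g =>
        (Real.finset_prod_rpow _ _ (fun b _ => hτ b _) _).symm
      rw [Finset.prod_congr rfl fun g _ => this g, Finset.prod_comm (t := (univ : Finset B))]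
      refine Finset.prod_congr rfl fun b _ => ?_
      exact (Fintype.prod_equiv (Equiv.addLeft (c b)) _ _ (fun g => rfl)).symm
    rw [e1]
    refine am.trans (le_of_eq ?_)
    unfold avg
    rw [hcard, ← Finset.mul_sum]
    ring
  calc (avg q) ^ K ≤ avg fun x : (∀ a, Fin (k a) → X) =>
        ∏ g : (∀ a, Fin (k a)), q fun a => x a (g a) := by
        rw [hK]; exact copies A k q hq0
    _ ≤ avg fun x => avg fun g => P g x := avg_mono h4
    _ = _ := h2.symm

end Vale.Agent.P050.H799
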