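import Vale.Agent.P050.H799.CfsIneq
import Vale.Agent.P050.H799.MainC

/-! Classes on one side (helper file for `P050.SemiCovers`). -/

namespace Vale.Agent.P050.H799

open Finset
open scoped Classical

/-- The first part is split into the classes `{(i, j) : j < k i}`; the vertex `b` of the second
part is joined to at most one vertex of each class, to `(i, j)` if `nb b i = some j`. -/
def classes {I B : Type} (k : I → ℕ) (nb : B → ∀ i, Option (Fin (k i))) :
    (Σ i, Fin (k i)) → B → Prop :=
  fun u b => nb b u.1 = some u.2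

lemma homDensity_classes {I B X : Type} [Fintype I] [Fintype B] [Fintype X] (k : I → ℕ)
    (hk : ∀ i, 0 < k i) (nb : B → ∀ i, Option (Fin (k i))) (G : SimpleGraph X) :
    homDensity (bip (classes k nb)) G =
      avg fun x : (∀ i, Fin (k i) → X) => ∏ b, fac G (fun i => (nb b i).isSome)
        (fun i => x i ((nb b i).getD ⟨0, hk i⟩)) := by
  rw [homDensity_bip, ← avg_equiv (Equiv.piCurry (fun a (_ : Fin (k a)) => X))]
  congr 1
  · exact Subsingleton.elim _ _
  funext x
  refine Finset.prod_congr rfl fun b _ => ?_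
  unfold fac
  congr 1
  funext y
  rw [Fintype.prod_sigma]
  refine Finset.prod_congr rfl fun i _ => ?_
  rcases hj : nb b i with _ | j
  · rw [if_neg (by simp [hj])]
    refine Finset.prod_eq_one fun j _ => ?_
    have : ¬ classes k nb ⟨i, j⟩ b := by
      unfold classes
      simp [hj]
    rw [if_neg this]
  · rw [if_pos (by simp [hj]), Finset.prod_eq_single j]
    · have : classes k nb ⟨i, j⟩ b := hj
      rw [if_pos this]
      simp [hj, Equiv.piCurry, Sigma.curry]
    · intro j' _ hj'
      have : ¬ classes k nb ⟨i, j'⟩ b := by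
        unfold classes
        simp only [hj, Option.some.injEq]
        exact fun h => hj' h.symm
      rw [if_neg this]
    · intro h'; exact absurd (Finset.mem_univ _) h'

lemma card_classes {I B : Type} [Fintype I] [Fintype B] (k : I → ℕ)
    (nb : B → ∀ i, Option (Fin (k i))) :
    Nat.card (bip (classes k nb)).edgeSet = ∑ b, ∑ i, if (nb b i).isSome then 1 else 0 := by
  rw [card_edges]
  refine Finset.sum_congr rfl fun b _ => ?_
  rw [Fintype.sum_sigma]
  refine Finset.sum_congr rfl fun i _ => ?_
  rcases hj : nb b i with _ | j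
  · rw [if_neg (by simp)]
    refine Finset.sum_eq_zero fun j _ => ?_
    have : ¬ classes k nb ⟨i, j⟩ b := by
      unfold classes
      simp [hj]
    rw [if_neg this]
  · rw [if_pos (by simp), Finset.sum_eq_single j]
    · have : classes k nb ⟨i, j⟩ b := hj
      rw [if_pos this]
    · intro j' _ hj'
      have : ¬ classes k nb ⟨i, j'⟩ b := by
        unfold classes
        simp only [hj, Option.some.injEq]
        exact fun h => hj' h.symm
      rw [if_neg this]
    · intro h'; exact absurd (Finset.mem_univ _) h'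

lemma fac_empty {I X : Type} [Fintype I] [Fintype X] [Nonempty X] (G : SimpleGraph X)
    (N : I → Prop) (h : ∀ i, ¬ N i) (z : I → X) : fac G N z = 1 := by
  have hX : (Fintype.card X : ℝ) ≠ 0 := by exact_mod_cast Fintype.card_ne_zero
  simp [fac, h, avg, hX]

theorem classes_sid {I B : Type} [Fintype I] [Fintype B] (k : I → ℕ) (hk : ∀ i, 0 < k i)
    (nb : B → ∀ i, Option (Fin (k i)))
    (hfull : ∏ i, k i ≤ Nat.card {b // ∀ i, (nb b i).isSome}) :
    Sidorenko (bip (classes k nb)) := by
  intro X _ _ G
  have h1 := mainC k hk (fun b z => fac G (fun i => (nb b i).isSome) z)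
    (fun b z => fac_nonneg _ _ _) (fun b i => (nb b i).getD ⟨0, hk i⟩) _ rfl
  rw [homDensity_classes k hk, card_classes]
  refine le_trans ?_ h1
  by_cases hI : Nonempty I
  swap
  · have e1 : ∀ (b : B) (z : I → X), fac G (fun i => (nb b i).isSome = true) z = 1 :=
      fun b z => fac_empty G _ (fun i => absurd ⟨i⟩ hI) z
    have e2 : (∑ b, ∑ i, if (nb b i).isSome then 1 else 0) = 0 :=
      Finset.sum_eq_zero fun b _ => Finset.sum_eq_zero fun i _ => absurd ⟨i⟩ hI
    rw [e2, pow_zero]
    simp only [e1, Real.one_rpow, Finset.prod_const_one]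
    have hX : (Fintype.card (I → X) : ℝ) ≠ 0 := by exact_mod_cast Fintype.card_ne_zero
    have e3 : (avg fun _ : I → X => (1 : ℝ)) = 1 := by
      unfold avg
      rw [Finset.sum_const, Finset.card_univ, nsmul_eq_mul, mul_one, div_self hX]
    rw [e3, one_pow]
  obtain ⟨i₀⟩ := hI
  rw [Nat.card_eq_fintype_card, Fintype.card_subtype] at hfull
  obtain ⟨S, hSs, hS⟩ := Finset.exists_subset_card_eq hfull
  -- the vertices of the second part which are not isolated
  have hSn : ∀ b ∈ S, ∃ i, (nb b i).isSome = true := fun b hb =>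
    ⟨i₀, (Finset.mem_filter.1 (hSs hb)).2 i₀⟩
  have h2 := cfs (I := I) (B := {b : B // ∃ i, (nb b i).isSome = true}) G
    (fun b i => (nb b.1 i).isSome = true) (∏ i, k i) (Finset.prod_pos fun i _ => hk i)
    (S.subtype _) (by
      rw [Finset.card_subtype, Finset.filter_true_of_mem hSn]; exact hS)
    (fun b hb i => (Finset.mem_filter.1 (hSs (Finset.mem_subtype.1 hb))).2 i)
    (fun b => b.2)
  have e4 : (∑ b, ∑ i, if (nb b i).isSome then 1 else 0) =
      ∑ b : {b : B // ∃ i, (nb b i).isSome = true}, ∑ i, if (nb b.1 i).isSome then 1 else 0 := by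
    rw [← Fintype.sum_subtype_add_sum_subtype (fun b => ∃ i, (nb b i).isSome = true)
      (fun b => ∑ i, if (nb b i).isSome then 1 else 0)]
    rw [Finset.sum_eq_zero (s := (univ : Finset {b // ¬ ∃ i, (nb b i).isSome = true})),
      add_zero]
    intro b _
    refine Finset.sum_eq_zero fun i _ => ?_
    rw [if_neg fun h => b.2 ⟨i, h⟩]
  have e5 : ∀ z : I → X, (∏ b, fac G (fun i => (nb b i).isSome = true) z ^
      (1 / ((∏ i, k i : ℕ) : ℝ))) = ∏ b : {b : B // ∃ i, (nb b i).isSome = true},
        fac G (fun i => (nb b.1 i).isSome = true) z ^ (1 / ((∏ i, k i : ℕ) : ℝ)) := by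
    intro z
    rw [← Fintype.prod_subtype_mul_prod_subtype (fun b => ∃ i, (nb b i).isSome = true)
      (fun b => fac G (fun i => (nb b i).isSome = true) z ^ (1 / ((∏ i, k i : ℕ) : ℝ)))]
    rw [Finset.prod_eq_one (s := (univ : Finset {b // ¬ ∃ i, (nb b i).isSome = true})),
      mul_one]
    intro b _
    rw [fac_empty G _ (fun i h => b.2 ⟨i, h⟩), Real.one_rpow]
  rw [e4]
  simp only [e5]
  refine le_trans (le_of_eq ?_) h2
  refine congrArg (fun t : ℕ => edgeDensity G ^ t) ?_
  refine Finset.sum_congr rfl fun b _ => Finset.sum_congr rfl fun i _ => ?_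
  split_ifs <;> rfl

end Vale.Agent.P050.H799
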