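import Vale.Agent.P050.H799.Cfs

/-! The inequality for one copy of each class, continued (helper file for `P050.SemiCovers`). -/

namespace Vale.Agent.P050.H799

open Finset
open scoped Classical

theorem cfs {I B X : Type} [Fintype I] [Fintype B] [Fintype X] [Nonempty X]
    (G : SimpleGraph X) (Nb : B → I → Prop) (K : ℕ) (hK : 0 < K) (S : Finset B)
    (hS : S.card = K) (hfull : ∀ b ∈ S, ∀ i, Nb b i) (hne : ∀ b, ∃ i, Nb b i) :
    edgeDensity G ^ (∑ b, ∑ i, if Nb b i then 1 else 0) ≤
      (avg fun z : I → X => ∏ b, fac G (Nb b) z ^ (1 / (K : ℝ))) ^ K := by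
  have hKr : (0 : ℝ) < K := by exact_mod_cast hK
  obtain ⟨b₀, hb₀⟩ : S.Nonempty := by rw [← Finset.card_pos, hS]; exact hK
  obtain ⟨i₀, hi₀⟩ := hne b₀
  obtain ⟨h, hh⟩ : ∃ h : (I → X) → ℝ, h = fun z => ∏ b, fac G (Nb b) z ^ (1 / (K : ℝ)) :=
    ⟨_, rfl⟩
  rw [← hh]
  have hh0 : ∀ z, 0 ≤ h z := fun z => by
    rw [hh]; exact prod_nonneg fun b _ => Real.rpow_nonneg (fac_nonneg _ _ _) _
  have hhK : ∀ z, h z ^ K = ∏ b, fac G (Nb b) z := by
    intro z
    rw [hh]
    simp only
    rw [← Finset.prod_pow]
    refine Finset.prod_congr rfl fun b _ => ?_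
    rw [← Real.rpow_natCast, ← Real.rpow_mul (fac_nonneg _ _ _), one_div,
      inv_mul_cancel₀ hKr.ne', Real.rpow_one]
  set F : ℝ := avg h with hF
  have hF0 : 0 ≤ F := avg_nonneg hh0
  set e : ℕ := ∑ b, ∑ i, if Nb b i then 1 else 0 with he
  set m : B → ℕ := fun b => ∑ i, if Nb b i then 0 else 1 with hm
  set n : ℕ := Fintype.card I with hn
  set N : ℕ := Fintype.card B with hN
  have hN0 : 0 < N := Fintype.card_pos_iff.2 ⟨b₀⟩
  have hNr : (0 : ℝ) < N := by exact_mod_cast hN0
  have hn0 : 0 < n := Fintype.card_pos_iff.2 ⟨i₀⟩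
  have hem : e + ∑ b, m b = N * n := by
    rw [he, hm, ← Finset.sum_add_distrib]
    have : ∀ b : B, ((∑ i, if Nb b i then 1 else 0) + ∑ i, if Nb b i then 0 else 1) = n := by
      intro b
      rw [← Finset.sum_add_distrib]
      rw [Finset.sum_congr rfl (g := fun _ => 1) fun i _ => by split_ifs <;> rfl]
      simp [hn]
    rw [Finset.sum_congr rfl fun b _ => this b]
    simp [hN]
  have heN : N ≤ e := by
    rw [he, hN, Fintype.card_eq_sum_ones]
    refine Finset.sum_le_sum fun b _ => ?_
    obtain ⟨i, hi⟩ := hne b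
    have := Finset.single_le_sum (f := fun i => if Nb b i then 1 else 0)
      (fun i _ => Nat.zero_le _) (Finset.mem_univ i)
    simpa [hi] using this
  have he0 : 0 < e := lt_of_lt_of_le hN0 heN
  by_cases hadj : ∃ x y, G.Adj x y
  swap
  · have : edgeDensity G = 0 := by
      rw [edgeDensity_eq]
      have e1 : (fun y => avg fun x => ind G x y) = fun _ => (0 : ℝ) := by
        funext y
        have : (fun x => ind G x y) = fun _ => (0 : ℝ) := by
          funext x
          unfold ind
          rw [if_neg]
          exact fun h => hadj ⟨x, y, h⟩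
        rw [this]
        simp [avg]
      rw [e1]
      simp [avg]
    rw [this, zero_pow he0.ne']
    exact pow_nonneg hF0 _
  obtain ⟨x₁, y₁, hxy⟩ := hadj
  have hFpos : 0 < F := by
    refine avg_pos hh0 (fun _ => x₁) ?_
    rw [hh]
    exact prod_pos fun b _ => Real.rpow_pos_of_pos (fac_pos G _ _ y₁ fun _ => hxy) _
  set d : X → ℝ := fun y => avg fun x => ind G x y with hd
  have hd0 : ∀ y, 0 ≤ d y := fun y => avg_nonneg fun x => ind_nonneg _ _ _
  set g : (I → X) → X → ℝ := fun z y => ∏ i, ind G (z i) y with hg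
  have hg0 : ∀ z y, 0 ≤ g z y := fun z y => prod_nonneg fun i _ => ind_nonneg _ _ _
  set T : (I → X) → ℝ := fun z => avg fun y => g z y with hT
  have hT0 : ∀ z, 0 ≤ T z := fun z => avg_nonneg fun y => hg0 z y
  have hfT : ∀ b ∈ S, ∀ z, fac G (Nb b) z = T z := by
    intro b hb z
    simp only [hT, hg]
    unfold fac
    congr 1
    funext y
    refine Finset.prod_congr rfl fun i _ => ?_
    rw [if_pos (hfull b hb i)]
  set Y : B → (I → X) → X → ℝ := fun b z y =>
    if b ∈ S then h z / (T z * F) else 1 / (fac G (Nb b) z * d y ^ m b) with hY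
  set R : X → ℝ := fun y => (1 / (d y ^ (∑ b, m b) * F ^ K)) ^ (1 / (N : ℝ)) with hR
  -- pointwise
  have pw : ∀ z y, g z y * R y ≤ ∑ b, 1 / (N : ℝ) * (g z y * Y b z y) := by
    intro z y
    by_cases hz : ∀ i, G.Adj (z i) y
    · have hg1 : g z y = 1 := prod_eq_one fun i _ => by simp [ind, hz i]
      have hτ : ∀ b, 0 < fac G (Nb b) z := fun b => fac_pos G _ z y hz
      have hTp : 0 < T z := by rw [← hfT b₀ hb₀ z]; exact hτ b₀
      have hdp : 0 < d y := avg_pos (fun x => ind_nonneg _ _ _) (z i₀) (by simp [ind, hz i₀])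
      have hhp : 0 < h z := by
        rw [hh]; exact prod_pos fun b _ => Real.rpow_pos_of_pos (hτ b) _
      have hYp : ∀ b, 0 < Y b z y := by
        intro b
        simp only [hY]
        split_ifs
        · positivity
        · have := hτ b; positivity
      have hprod : ∏ b, Y b z y = 1 / (d y ^ (∑ b, m b) * F ^ K) := by
        have e1 : ∀ b, Y b z y * (fac G (Nb b) z * d y ^ m b * (if b ∈ S then F / h z else 1))
            = 1 := by
          intro b
          simp only [hY]
          have := hτ b
          by_cases hb : b ∈ S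
          · have hmb : m b = 0 := by
              simp only [hm]
              refine Finset.sum_eq_zero fun i _ => ?_
              rw [if_pos (hfull b hb i)]
            rw [if_pos hb, if_pos hb, hfT b hb z, hmb]
            field_simp
          · rw [if_neg hb, if_neg hb]
            field_simp
        have e2 : (∏ b, Y b z y) * ∏ b, (fac G (Nb b) z * d y ^ m b *
            (if b ∈ S then F / h z else 1)) = 1 := by
          rw [← Finset.prod_mul_distrib]
          exact prod_eq_one fun b _ => e1 b
        have e3 : ∏ b, (fac G (Nb b) z * d y ^ m b * (if b ∈ S then F / h z else 1)) =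
            d y ^ (∑ b, m b) * F ^ K := by
          rw [Finset.prod_mul_distrib, Finset.prod_mul_distrib, ← hhK z,
            Finset.prod_pow_eq_pow_sum, Finset.prod_ite_mem, Finset.univ_inter,
            Finset.prod_const, hS, div_pow]
          field_simp
        rw [e3] at e2
        exact eq_one_div_of_mul_eq_one_left e2
      have am := Real.geom_mean_le_arith_mean_weighted (univ : Finset B)
        (fun _ => 1 / (N : ℝ)) (fun b => Y b z y) (fun _ _ => by positivity)
        (by rw [Finset.sum_const, Finset.card_univ, nsmul_eq_mul, ← hN]; field_simp)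
        (fun b _ => (hYp b).le)
      rw [Real.finsetProd_rpow _ _ (fun b _ => (hYp b).le), hprod] at am
      rw [hg1, one_mul]
      refine am.trans (le_of_eq ?_)
      refine Finset.sum_congr rfl fun b _ => ?_
      rw [one_mul]
    · push Not at hz
      obtain ⟨i, hi⟩ := hz
      have hg1 : g z y = 0 := prod_eq_zero (Finset.mem_univ i) (by simp [ind, hi])
      rw [hg1]
      simp
  -- the averages of the summands
  have bd : ∀ b, (avg fun y => avg fun z => g z y * Y b z y) ≤ 1 := by
    intro b
    by_cases hb : b ∈ S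
    · simp only [hY, if_pos hb]
      rw [avg_comm]
      have e1 : ∀ z, (avg fun y => g z y * (h z / (T z * F))) ≤ h z * (1 / F) := by
        intro z
        rw [avg_mul]
        change T z * _ ≤ _
        rcases (hT0 z).eq_or_lt with h0 | h0
        · rw [← h0, zero_mul]
          exact mul_nonneg (hh0 z) (by positivity)
        · refine le_of_eq ?_
          field_simp
      refine (avg_mono e1).trans ?_
      rw [avg_mul, ← hF]
      refine le_of_eq ?_
      field_simp
    · simp only [hY, if_neg hb]
      exact bound_out G (Nb b)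
  have hsum : (avg fun y => avg fun z => g z y * R y) ≤ 1 := by
    calc (avg fun y => avg fun z => g z y * R y)
        ≤ avg fun y => avg fun z => ∑ b, 1 / (N : ℝ) * (g z y * Y b z y) :=
          avg_mono fun y => avg_mono fun z => pw z y
      _ = ∑ b, 1 / (N : ℝ) * avg fun y => avg fun z => g z y * Y b z y := by
          simp only [avg_sum]
          refine Finset.sum_congr rfl fun b _ => ?_
          have : ∀ y, (avg fun z => 1 / (N : ℝ) * (g z y * Y b z y)) =
              (avg fun z => g z y * Y b z y) * (1 / (N : ℝ)) := by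
            intro y
            rw [← avg_mul]
            congr 1
            funext z
            ring
          simp only [this]
          rw [avg_mul]
          ring
      _ ≤ ∑ _b : B, 1 / (N : ℝ) * 1 :=
          Finset.sum_le_sum fun b _ => mul_le_mul_of_nonneg_left (bd b) (by positivity)
      _ = 1 := by
          rw [Finset.sum_const, Finset.card_univ, nsmul_eq_mul, ← hN]
          field_simp
  have hpt : ∀ y, d y ^ ((e : ℝ) / N) * (1 / F ^ ((K : ℝ) / N)) ≤ avg fun z => g z y * R y := by
    intro y
    rw [avg_mul]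
    have e1 : (avg fun z => g z y) = d y ^ n := by
      simp only [hg]
      rw [avg_pi_prod (fun _ x => ind G x y), Finset.prod_const, Finset.card_univ]
    rw [e1]
    rcases (hd0 y).eq_or_lt with h0 | h0
    · rw [← h0, Real.zero_rpow (by positivity), zero_pow hn0.ne']
      simp
    · refine le_of_eq ?_
      simp only [hR]
      have hcast : (e : ℝ) + ((∑ b, m b : ℕ) : ℝ) = N * n := by exact_mod_cast hem
      rw [one_div (d y ^ (∑ b, m b) * F ^ K), Real.inv_rpow (by positivity),
        Real.mul_rpow (by positivity) (by positivity), ← Real.rpow_natCast (d y) (∑ b, m b),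
        ← Real.rpow_natCast F K, ← Real.rpow_mul h0.le, ← Real.rpow_mul hFpos.le, mul_inv,
        ← Real.rpow_natCast (d y) n, ← mul_assoc, ← Real.rpow_neg h0.le, ← Real.rpow_add h0,
        one_div (F ^ ((K : ℝ) / N)), mul_one_div, mul_one_div]
      congr 2
      rw [eq_comm, ← sub_eq_add_neg, sub_eq_iff_eq_add, ← add_div, hcast]
      field_simp
  have hfin : edgeDensity G ^ ((e : ℝ) / N) ≤ F ^ ((K : ℝ) / N) := by
    have h1 : (avg fun y => d y ^ ((e : ℝ) / N)) * (1 / F ^ ((K : ℝ) / N)) ≤ 1 := by
      rw [← avg_mul]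
      exact (avg_mono hpt).trans hsum
    have h2 : avg d ^ ((e : ℝ) / N) ≤ avg fun y => d y ^ ((e : ℝ) / N) :=
      avg_rpow hd0 (by rw [le_div_iff₀ hNr, one_mul]; exact_mod_cast heN)
    rw [mul_one_div, div_le_one (Real.rpow_pos_of_pos hFpos _)] at h1
    rw [edgeDensity_eq]
    exact h2.trans h1
  have hp0 : 0 ≤ edgeDensity G := by
    rw [edgeDensity_eq]; exact avg_nonneg hd0
  calc edgeDensity G ^ e = (edgeDensity G ^ ((e : ℝ) / N)) ^ N := by
        rw [← Real.rpow_natCast (edgeDensity G ^ ((e : ℝ) / N)) N, ← Real.rpow_mul hp0,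
          div_mul_cancel₀ _ hNr.ne', Real.rpow_natCast]
    _ ≤ (F ^ ((K : ℝ) / N)) ^ N := pow_le_pow_left₀ (Real.rpow_nonneg hp0 _) hfin _
    _ = F ^ K := by
        rw [← Real.rpow_natCast (F ^ ((K : ℝ) / N)) N, ← Real.rpow_mul hFpos.le,
          div_mul_cancel₀ _ hNr.ne', Real.rpow_natCast]

end Vale.Agent.P050.H799
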