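import Vale.Agent.P050.H799.Main

/-! Homomorphism densities of bipartite graphs (helper file for `P050.SemiCovers`). -/

namespace Vale.Agent.P050.H799

open Finset
open scoped Classical

/-- the number of homomorphisms from `H` to `G`, divided by `|V(G)| ^ |V(H)|` -/
noncomputable def homDensity {V X : Type} [Fintype V] [Fintype X] (H : SimpleGraph V)
    (G : SimpleGraph X) : ℝ :=
  (Nat.card (H →g G) : ℝ) / (Fintype.card X : ℝ) ^ Fintype.card V

/-- the number of ordered adjacent pairs, divided by `|V(G)| ^ 2` -/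
noncomputable def edgeDensity {X : Type} [Fintype X] (G : SimpleGraph X) : ℝ :=
  (Nat.card {q : X × X // G.Adj q.1 q.2} : ℝ) / (Fintype.card X : ℝ) ^ 2

/-- Sidorenko's inequality for `H` against every finite graph -/
def Sidorenko {V : Type} [Fintype V] (H : SimpleGraph V) : Prop :=
  ∀ (X : Type) [Fintype X] [Nonempty X] (G : SimpleGraph X),
    edgeDensity G ^ Nat.card H.edgeSet ≤ homDensity H G

/-- the bipartite graph with parts `A`, `B` and edges `ab` for `E a b` -/
def bip {A B : Type} (E : A → B → Prop) : SimpleGraph (A ⊕ B) where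
  Adj u v := (∃ a b, E a b ∧ u = Sum.inl a ∧ v = Sum.inr b) ∨
    (∃ a b, E a b ∧ v = Sum.inl a ∧ u = Sum.inr b)
  symm := ⟨fun _ _ h => Or.symm h⟩
  loopless := ⟨fun u h => by
    rcases h with ⟨a, b, _, h1, h2⟩ | ⟨a, b, _, h1, h2⟩ <;> simp [h1] at h2⟩

lemma bip_adj {A B : Type} (E : A → B → Prop) (a : A) (b : B) :
    (bip E).Adj (Sum.inl a) (Sum.inr b) ↔ E a b := by
  constructor
  · rintro (⟨a', b', h, h1, h2⟩ | ⟨a', b', h, h1, h2⟩)
    · cases h1; cases h2; exact h
    · cases h1
  · intro h; exact Or.inl ⟨a, b, h, rfl, rfl⟩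

/-- the indicator of adjacency -/
noncomputable def ind {X : Type} (G : SimpleGraph X) (x y : X) : ℝ := if G.Adj x y then 1 else 0

lemma ind_nonneg {X : Type} (G : SimpleGraph X) (x y : X) : 0 ≤ ind G x y := by
  unfold ind; split_ifs <;> norm_num

lemma edgeDensity_eq {X : Type} [Fintype X] (G : SimpleGraph X) :
    edgeDensity G = avg fun y => avg fun x => ind G x y := by
  unfold edgeDensity avg ind
  rw [← Finset.sum_div, div_div, ← sq]
  congr 1
  rw [Nat.card_eq_fintype_card, Fintype.card_subtype, Finset.card_filter]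
  push_cast
  rw [Fintype.sum_prod_type, Finset.sum_comm]

lemma homDensity_bip {A B X : Type} [Fintype A] [Fintype B] [Fintype X] (E : A → B → Prop)
    (G : SimpleGraph X) :
    homDensity (bip E) G =
      avg fun x : A → X => ∏ b, avg fun y => ∏ a, if E a b then ind G (x a) y else 1 := by
  have e : (bip E →g G) ≃ {q : (A → X) × (B → X) // ∀ b a, E a b → G.Adj (q.1 a) (q.2 b)} :=
    { toFun := fun f => ⟨(fun a => f (Sum.inl a), fun b => f (Sum.inr b)), fun b a h =>
        f.map_rel ((bip_adj E a b).2 h)⟩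
      invFun := fun q => ⟨fun v => Sum.elim q.1.1 q.1.2 v, by
        intro u v h
        rcases h with ⟨a, b, h, h1, h2⟩ | ⟨a, b, h, h1, h2⟩
        · subst h1; subst h2; exact q.2 b a h
        · subst h1; subst h2; exact (q.2 b a h).symm⟩
      left_inv := fun f => by
        ext v
        cases v <;> rfl
      right_inv := fun q => by
        rcases q with ⟨⟨x, y⟩, h⟩
        rfl }
  unfold homDensity
  rw [Nat.card_congr e, Nat.card_eq_fintype_card, Fintype.card_subtype, Finset.card_filter]
  push_cast
  rw [Fintype.sum_prod_type]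
  unfold avg
  rw [Fintype.card_sum, pow_add, Fintype.card_fun]
  push_cast
  rw [mul_comm, ← div_div]
  congr 1
  rw [Finset.sum_div]
  refine Finset.sum_congr rfl fun x _ => ?_
  rw [Finset.prod_div_distrib, Finset.prod_const, Finset.card_univ]
  congr 1
  have := Finset.prod_univ_sum (fun _ : B => (univ : Finset X))
    (fun b y => ∏ a, if E a b then ind G (x a) y else 1)
  rw [Fintype.piFinset_univ] at this
  rw [this]
  refine Finset.sum_congr rfl fun w _ => ?_
  by_cases h : ∀ b a, E a b → G.Adj (x a) (w b)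
  · rw [if_pos h]
    symm
    refine Finset.prod_eq_one fun b _ => Finset.prod_eq_one fun a _ => ?_
    split_ifs with h'
    · simp [ind, h b a h']
    · rfl
  · rw [if_neg h]
    push Not at h
    obtain ⟨b, a, h1, h2⟩ := h
    symm
    refine Finset.prod_eq_zero (Finset.mem_univ b) (Finset.prod_eq_zero (Finset.mem_univ a) ?_)
    rw [if_pos h1]
    simp [ind, h2]

lemma card_edges {A B : Type} [Fintype A] [Fintype B] (E : A → B → Prop) :
    Nat.card (bip E).edgeSet = ∑ b, ∑ a, if E a b then 1 else 0 := by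
  have e : {q : B × A // E q.2 q.1} ≃ (bip E).edgeSet := by
    refine Equiv.ofBijective (fun q => ⟨s(Sum.inl q.1.2, Sum.inr q.1.1), ?_⟩) ⟨?_, ?_⟩
    · exact (bip_adj E q.1.2 q.1.1).2 q.2
    · rintro ⟨⟨b, a⟩, h⟩ ⟨⟨b', a'⟩, h'⟩ hq
      have h2 := congrArg Subtype.val hq
      simp [Sym2.eq_iff] at h2
      obtain ⟨rfl, rfl⟩ := h2
      rfl
    · rintro ⟨s, hs⟩
      induction s using Sym2.ind with
      | _ u v =>
        rcases hs with ⟨a, b, h, h1, h2⟩ | ⟨a, b, h, h1, h2⟩
        · change u = _ at h1
          change v = _ at h2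
          exact ⟨⟨(b, a), h⟩, Subtype.ext (by
            change s(Sum.inl a, Sum.inr b) = s(u, v)
            rw [h1, h2])⟩
        · change v = _ at h1
          change u = _ at h2
          exact ⟨⟨(b, a), h⟩, Subtype.ext (by
            change s(Sum.inl a, Sum.inr b) = s(u, v)
            rw [h1, h2]; exact Sym2.eq_swap)⟩
  rw [← Nat.card_congr e, Nat.card_eq_fintype_card, Fintype.card_subtype, Finset.card_filter,
    Fintype.sum_prod_type]

end Vale.Agent.P050.H799
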