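import Mathlib

/-! Averages over copies of coordinates (helper file for `P050.SemiCovers`). -/

namespace Vale.Agent.P050.H799

open Finset
open scoped Classical

/-- the average of a real function on a finite type -/
noncomputable def avg {Ω : Type} [Fintype Ω] (f : Ω → ℝ) : ℝ := (∑ x, f x) / (Fintype.card Ω : ℝ)

lemma avg_nonneg {Ω : Type} [Fintype Ω] {f : Ω → ℝ} (h : ∀ x, 0 ≤ f x) : 0 ≤ avg f :=
  div_nonneg (sum_nonneg fun x _ => h x) (by positivity)

lemma avg_mono {Ω : Type} [Fintype Ω] {f g : Ω → ℝ} (h : ∀ x, f x ≤ g x) : avg f ≤ avg g :=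
  div_le_div_of_nonneg_right (sum_le_sum fun x _ => h x) (by positivity)

lemma avg_equiv {Ω Ω' : Type} [Fintype Ω] [Fintype Ω'] (e : Ω ≃ Ω') (f : Ω' → ℝ) :
    avg (fun x => f (e x)) = avg f := by
  unfold avg
  rw [Fintype.card_congr e]
  congr 1
  exact Fintype.sum_equiv e _ _ (fun x => rfl)

lemma avg_prod {Ω Ω' : Type} [Fintype Ω] [Fintype Ω'] (f : Ω × Ω' → ℝ) :
    avg f = avg fun x => avg fun y => f (x, y) := by
  unfold avg
  rw [Fintype.sum_prod_type, Fintype.card_prod]
  push_cast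
  rw [← Finset.sum_div, div_div, mul_comm]

lemma avg_comm {Ω Ω' : Type} [Fintype Ω] [Fintype Ω'] (f : Ω → Ω' → ℝ) :
    (avg fun x => avg fun y => f x y) = avg fun y => avg fun x => f x y := by
  rw [← avg_prod (fun z : Ω × Ω' => f z.1 z.2), ← avg_prod (fun z : Ω' × Ω => f z.2 z.1),
    ← avg_equiv (Equiv.prodComm Ω Ω') (fun z : Ω' × Ω => f z.2 z.1)]
  rfl

/-- Jensen for natural powers -/
lemma avg_pow {Ω : Type} [Fintype Ω] [Nonempty Ω] {f : Ω → ℝ} (h : ∀ x, 0 ≤ f x) (m : ℕ) :
    avg f ^ m ≤ avg fun x => f x ^ m := by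
  have hc : (0 : ℝ) < Fintype.card Ω := by exact_mod_cast Fintype.card_pos
  have := Real.pow_arith_mean_le_arith_mean_pow (univ : Finset Ω)
    (fun _ => 1 / (Fintype.card Ω : ℝ)) f (fun _ _ => by positivity)
    (by simp [Finset.sum_const, Finset.card_univ, hc.ne']) (fun x _ => h x) m
  unfold avg
  calc ((∑ x, f x) / (Fintype.card Ω : ℝ)) ^ m
      = (∑ x, 1 / (Fintype.card Ω : ℝ) * f x) ^ m := by
        rw [← Finset.mul_sum]; ring
    _ ≤ ∑ x, 1 / (Fintype.card Ω : ℝ) * f x ^ m := this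
    _ = (∑ x, f x ^ m) / (Fintype.card Ω : ℝ) := by
        rw [← Finset.mul_sum]; ring

/-- Jensen for real powers -/
lemma avg_rpow {Ω : Type} [Fintype Ω] [Nonempty Ω] {f : Ω → ℝ} (h : ∀ x, 0 ≤ f x) {r : ℝ}
    (hr : 1 ≤ r) : avg f ^ r ≤ avg fun x => f x ^ r := by
  have hc : (0 : ℝ) < Fintype.card Ω := by exact_mod_cast Fintype.card_pos
  have := Real.rpow_arith_mean_le_arith_mean_rpow (univ : Finset Ω)
    (fun _ => 1 / (Fintype.card Ω : ℝ)) f (fun _ _ => by positivity)
    (by simp [Finset.sum_const, Finset.card_univ, hc.ne']) (fun x _ => h x) hr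
  unfold avg
  calc ((∑ x, f x) / (Fintype.card Ω : ℝ)) ^ r
      = (∑ x, 1 / (Fintype.card Ω : ℝ) * f x) ^ r := by
        rw [← Finset.mul_sum]; congr 1; ring
    _ ≤ ∑ x, 1 / (Fintype.card Ω : ℝ) * f x ^ r := this
    _ = (∑ x, f x ^ r) / (Fintype.card Ω : ℝ) := by
        rw [← Finset.mul_sum]; ring

/-- independent copies: the average of a product over the coordinates -/
lemma avg_fin_prod {X : Type} [Fintype X] [Nonempty X] (m : ℕ) (f : X → ℝ) :
    (avg fun u : Fin m → X => ∏ j, f (u j)) = avg f ^ m := by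
  unfold avg
  rw [Fintype.card_fun, Fintype.card_fin, div_pow]
  push_cast
  congr 1
  have := (Finset.prod_univ_sum (fun _ : Fin m => (univ : Finset X)) (fun _ x => f x)).symm
  rw [Fintype.piFinset_univ] at this
  rw [this]
  simp

lemma avg_inst {Ω0 Ω Ω' : Type} (i0 i0' : Fintype Ω0) (i1 i2 : Fintype Ω) (j1 j2 : Fintype Ω')
    (q : Ω0 → ℝ) (n : ℕ) (f : Ω → Ω' → ℝ)
    (h : @avg Ω0 i0 q ^ n ≤ @avg Ω i1 (fun x => ∏ g ∈ @univ Ω' j1, f x g)) :
    @avg Ω0 i0' q ^ n ≤ @avg Ω i2 (fun x => ∏ g ∈ @univ Ω' j2, f x g) := by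
  rw [Subsingleton.elim i0' i0, Subsingleton.elim i2 i1, Subsingleton.elim j2 j1]
  exact h

/-- `E_x prod_g q(x^g) >= (E q)^(prod k)`, one coordinate at a time -/
theorem copies {X : Type} [Fintype X] [Nonempty X] (A : Type) [Fintype A] :
    ∀ (k : A → ℕ) (q : (A → X) → ℝ), (∀ z, 0 ≤ q z) →
      avg q ^ (∏ a, k a) ≤
        avg fun x : (∀ a, Fin (k a) → X) => ∏ g : (∀ a, Fin (k a)), q fun a => x a (g a) := by
  refine Fintype.induction_empty_option (P := fun A _ => ∀ (k : A → ℕ) (q : (A → X) → ℝ),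
      (∀ z, 0 ≤ q z) →
      avg q ^ (∏ a, k a) ≤
        avg fun x : (∀ a, Fin (k a) → X) => ∏ g : (∀ a, Fin (k a)), q fun a => x a (g a))
      ?_ ?_ ?_ A
  · intro α β _ e ih k q hq
    letI : Fintype α := Fintype.ofEquiv β e.symm
    have h := ih (fun a => k (e a)) (fun z => q fun b => z (e.symm b)) (fun z => hq _)
    have h1 : (∏ a, k (e a)) = ∏ b, k b := Fintype.prod_equiv e _ _ (fun _ => rfl)
    have h2 : avg (fun z : α → X => q fun b => z (e.symm b)) = avg q :=
      avg_equiv (Equiv.arrowCongr e (Equiv.refl X)) q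
    rw [h1, h2] at h
    refine h.trans (le_of_eq ?_)
    rw [← avg_equiv (Equiv.piCongrLeft (fun b => Fin (k b) → X) e)]
    congr 1
    funext x
    refine Fintype.prod_equiv (Equiv.piCongrLeft (fun b => Fin (k b)) e) _ _ (fun g => ?_)
    congr 1
    funext b
    obtain ⟨a, rfl⟩ := e.surjective b
    rw [Equiv.piCongrLeft_apply_apply, Equiv.piCongrLeft_apply_apply, e.symm_apply_apply]
  · intro k q hq
    have : (avg fun x : (∀ a : PEmpty, Fin (k a) → X) =>
        ∏ g : (∀ a : PEmpty, Fin (k a)), q fun a => x a (g a)) = avg q := by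
      rw [← avg_equiv (Equiv.ofUnique (∀ a : PEmpty, Fin (k a) → X) (PEmpty → X)) q]
      congr 1
      funext x
      rw [Fintype.prod_unique]
      congr 1
      funext a
      exact a.elim
    have key : avg q ^ (∏ a, k a) ≤ (avg fun x : (∀ a : PEmpty, Fin (k a) → X) =>
        ∏ g : (∀ a : PEmpty, Fin (k a)), q fun a => x a (g a)) := by
      rw [this]
      simp
    exact avg_inst _ _ _ _ _ _ q _
      (fun (x : ∀ a, Fin (k a) → X) (g : ∀ a, Fin (k a)) => q fun a => x a (g a)) key
  · intro α _ ih k q hq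
    let k' : α → ℕ := fun a => k (some a)
    let n : ℕ := ∏ a, k' a
    have hprod : (∏ a, k a) = k none * n := by
      rw [Fintype.prod_option]
    let cons : X → (α → X) → (Option α → X) := fun w z o => Option.casesOn o w z
    -- the split of the average of q
    have hq1 : avg q = avg fun w => avg fun z : α → X => q (cons w z) := by
      rw [← avg_prod (fun p : X × (α → X) => q (cons p.1 p.2)),
        ← avg_equiv (Equiv.piOptionEquivProd (β := fun _ : Option α => X)).symm q]
      congr 1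
    have hR : (avg fun x : (∀ a, Fin (k a) → X) => ∏ g : (∀ a, Fin (k a)), q fun a => x a (g a))
        = avg fun y : (∀ a : α, Fin (k' a) → X) =>
            (avg fun w : X => ∏ g : (∀ a : α, Fin (k' a)), q (cons w fun a => y a (g a)))
              ^ k none := by
      rw [← avg_equiv (Equiv.piOptionEquivProd (β := fun a : Option α => Fin (k a) → X)).symm,
        avg_prod, avg_comm]
      congr 1
      funext y
      rw [← avg_fin_prod]
      congr 1
      funext u
      rw [← Fintype.prod_equiv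
        (Equiv.piOptionEquivProd (β := fun a : Option α => Fin (k a))).symm
        (fun p => q (cons (u p.1) fun a => y a (p.2 a))) _ ?_]
      · rw [Fintype.prod_prod_type]
      · rintro ⟨j, g⟩
        congr 1
        funext o
        cases o <;> rfl
    have hnn : ∀ (w : X) (y : ∀ a : α, Fin (k' a) → X),
        0 ≤ ∏ g : (∀ a : α, Fin (k' a)), q (cons w fun a => y a (g a)) :=
      fun w y => prod_nonneg fun g _ => hq _
    have step1 : avg q ^ n ≤ avg fun y : (∀ a : α, Fin (k' a) → X) =>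
        avg fun w : X => ∏ g : (∀ a : α, Fin (k' a)), q (cons w fun a => y a (g a)) := by
      rw [avg_comm]
      calc avg q ^ n = (avg fun w => avg fun z : α → X => q (cons w z)) ^ n := by rw [hq1]
        _ ≤ avg fun w => (avg fun z : α → X => q (cons w z)) ^ n :=
            avg_pow (fun w => avg_nonneg fun z => hq _) n
        _ ≤ _ := avg_mono fun w => ih k' (fun z => q (cons w z)) (fun z => hq _)
    have key : avg q ^ (∏ a, k a) ≤ avg fun x : (∀ a, Fin (k a) → X) =>
        ∏ g : (∀ a, Fin (k a)), q fun a => x a (g a) := by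
     rw [hR, hprod, mul_comm, pow_mul]
     calc (avg q ^ n) ^ k none
        ≤ (avg fun y : (∀ a : α, Fin (k' a) → X) =>
            avg fun w : X => ∏ g : (∀ a : α, Fin (k' a)), q (cons w fun a => y a (g a)))
              ^ k none :=
          pow_le_pow_left₀ (pow_nonneg (avg_nonneg hq) _) step1 _
      _ ≤ _ := avg_pow (fun y => avg_nonneg fun w => hnn w y) _
    exact avg_inst _ _ _ _ _ _ q _
      (fun (x : ∀ a, Fin (k a) → X) (g : ∀ a, Fin (k a)) => q fun a => x a (g a)) key

end Vale.Agent.P050.H799
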