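import Vale.Agent.P050.H799.Jensen

/-! The averaging step (helper file for `P050.SemiCovers`). -/

namespace Vale.Agent.P050.H799

open Finset
open scoped Classical

/-- translation of the copies by `g` -/
def shift {A X : Type} (k : A → ℕ) [∀ a, NeZero (k a)] (g : ∀ a, Fin (k a)) :
    (∀ a, Fin (k a) → X) ≃ (∀ a, Fin (k a) → X) where
  toFun x a j := x a (j + g a)
  invFun x a j := x a (j - g a)
  left_inv x := by funext a j; simp
  right_inv x := by funext a j; simp

theorem main {A B X : Type} [Fintype A] [Fintype B] [Fintype X] [Nonempty X] (k : A → ℕ)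
    (hk : ∀ a, 0 < k a) (τ : B → (A → X) → ℝ) (hτ : ∀ b z, 0 ≤ τ b z) (M : ℕ)
    (hM : ∏ a, k a ≤ M) (c : B → Fin M → ∀ a, Fin (k a)) :
    (avg fun z => ∏ b, τ b z) ^ M ≤
      avg fun x : (∀ a, Fin (k a) → X) => ∏ b, ∏ m, τ b fun a => x a (c b m a) := by
  haveI : ∀ a, NeZero (k a) := fun a => ⟨(hk a).ne'⟩
  set K : ℕ := ∏ a, k a with hK
  have hKpos : 0 < K := Finset.prod_pos fun a _ => hk a
  have hKr : (0 : ℝ) < (K : ℝ) := by exact_mod_cast hKpos
  have hcard : Fintype.card (∀ a, Fin (k a)) = K := by simp [hK]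
  set q : (A → X) → ℝ := fun z => ∏ b, τ b z with hq
  have hq0 : ∀ z, 0 ≤ q z := fun z => prod_nonneg fun b _ => hτ b z
  set r : ℝ := (M : ℝ) / K with hr
  have hr1 : 1 ≤ r := by
    rw [hr, le_div_iff₀ hKr, one_mul]; exact_mod_cast hM
  set P : (∀ a, Fin (k a)) → (∀ a, Fin (k a) → X) → ℝ :=
    fun g x => ∏ b, ∏ m, τ b fun a => x a (c b m a + g a) with hP
  have hP0 : ∀ g x, 0 ≤ P g x := fun g x => prod_nonneg fun b _ => prod_nonneg fun m _ => hτ b _
  set Q : (∀ a, Fin (k a) → X) → ℝ := fun x => ∏ g : (∀ a, Fin (k a)), q fun a => x a (g a)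
    with hQ
  have hQ0 : ∀ x, 0 ≤ Q x := fun x => prod_nonneg fun g _ => hq0 _
  -- the average does not change under translations
  have h1 : ∀ g, avg (P g) = avg fun x : (∀ a, Fin (k a) → X) =>
      ∏ b, ∏ m, τ b fun a => x a (c b m a) := fun g =>
    avg_equiv (shift k g) fun x : (∀ a, Fin (k a) → X) => ∏ b, ∏ m, τ b fun a => x a (c b m a)
  have h2 : (avg fun x : (∀ a, Fin (k a) → X) => ∏ b, ∏ m, τ b fun a => x a (c b m a)) =
      avg fun x => avg fun g => P g x := by
    rw [avg_comm]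
    have : (fun g => avg fun x => P g x) = fun _ => avg fun x : (∀ a, Fin (k a) → X) =>
        ∏ b, ∏ m, τ b fun a => x a (c b m a) := funext h1
    rw [this]
    unfold avg
    rw [Finset.sum_const, Finset.card_univ, hcard, nsmul_eq_mul]
    field_simp
  -- the geometric mean over the translations
  have h3 : ∀ x, ∏ g, P g x = Q x ^ M := by
    intro x
    have e1 : ∏ g, P g x = ∏ b, ∏ _m : Fin M, ∏ g : (∀ a, Fin (k a)), τ b fun a => x a (g a) := by
      rw [hP]
      simp only
      rw [Finset.prod_comm]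
      refine Finset.prod_congr rfl fun b _ => ?_
      rw [Finset.prod_comm]
      refine Finset.prod_congr rfl fun m _ => ?_
      exact Fintype.prod_equiv (Equiv.addLeft (c b m)) _ _ (fun g => rfl)
    rw [e1, hQ]
    simp only [hq]
    rw [Finset.prod_comm (s := (univ : Finset (∀ a, Fin (k a)))), ← Finset.prod_pow]
    refine Finset.prod_congr rfl fun b _ => ?_
    simp
  have h4 : ∀ x, Q x ^ r ≤ avg fun g => P g x := by
    intro x
    have am := Real.geom_mean_le_arith_mean_weighted (univ : Finset (∀ a, Fin (k a)))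
      (fun _ => 1 / (K : ℝ)) (fun g => P g x) (fun _ _ => by positivity)
      (by rw [Finset.sum_const, Finset.card_univ, hcard, nsmul_eq_mul]; field_simp)
      (fun g _ => hP0 g x)
    rw [Real.finset_prod_rpow _ _ (fun g _ => hP0 g x), h3 x, ← Real.rpow_natCast,
      ← Real.rpow_mul (hQ0 x)] at am
    have e : (M : ℝ) * (1 / (K : ℝ)) = r := by rw [hr]; ring
    rw [e] at am
    refine am.trans (le_of_eq ?_)
    unfold avg
    rw [hcard, ← Finset.mul_sum]
    ring
  calc (avg q) ^ M = ((avg q) ^ K) ^ r := by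
        rw [← Real.rpow_natCast (avg q) K, ← Real.rpow_mul (avg_nonneg hq0), hr,
          mul_div_cancel₀ _ hKr.ne', Real.rpow_natCast]
    _ ≤ (avg Q) ^ r :=
        Real.rpow_le_rpow (pow_nonneg (avg_nonneg hq0) _) (copies A k q hq0) (by linarith)
    _ ≤ avg fun x => Q x ^ r := avg_rpow hQ0 hr1
    _ ≤ avg fun x => avg fun g => P g x := avg_mono h4
    _ = _ := h2.symm

end Vale.Agent.P050.H799
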