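import Vale.Agent.P050.H799.Hom
import Vale.Agent.P050.H655.OrbCore

/-! The orbit form (helper file for `P050.SemiCovers`). -/

namespace Vale.Agent.P050.H799

open Finset
open scoped Classical

/-- the group moves the maps -/
def mv {A Γ : Type} [Group Γ] [MulAction Γ A] (X : Type) (g : Γ) : (A → X) ≃ (A → X) where
  toFun x a := x (g • a)
  invFun x a := x (g⁻¹ • a)
  left_inv x := by ext a; simp
  right_inv x := by ext a; simp

/-- the factor of the vertex `b` -/
noncomputable def tau {A B X : Type} [Fintype A] [Fintype X] (E : A → B → Prop)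
    (G : SimpleGraph X) (x : A → X) (b : B) : ℝ :=
  avg fun y => ∏ a, if E a b then ind G (x a) y else 1

lemma tau_nonneg {A B X : Type} [Fintype A] [Fintype X] (E : A → B → Prop)
    (G : SimpleGraph X) (x : A → X) (b : B) : 0 ≤ tau E G x b :=
  avg_nonneg fun y => prod_nonneg fun a _ => by
    split_ifs
    · exact ind_nonneg _ _ _
    · exact zero_le_one

lemma tau_mv {A B X Γ : Type} [Fintype A] [Fintype X] [Group Γ] [MulAction Γ A] [MulAction Γ B]
    (E : A → B → Prop) (hE : ∀ (g : Γ) a b, E (g • a) (g • b) ↔ E a b)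
    (G : SimpleGraph X) (g : Γ) (x : A → X) (b : B) :
    tau E G (mv X g x) b = tau E G x (g • b) := by
  unfold tau
  congr 1
  funext y
  refine Fintype.prod_equiv (MulAction.toPerm g) _ _ fun a => ?_
  by_cases h : E a b
  · rw [if_pos h, if_pos (show E (MulAction.toPerm g a) (g • b) from (hE g a b).2 h)]
    rfl
  · rw [if_neg h, if_neg (show ¬ E (MulAction.toPerm g a) (g • b) from
      fun h' => h ((hE g a b).1 h'))]

theorem orb {A B B' Γ : Type} [Fintype A] [Fintype B] [Fintype B'] [Group Γ] [Fintype Γ]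
    [MulAction Γ A] [MulAction Γ B] (E : A → B → Prop)
    (hE : ∀ (g : Γ) a b, E (g • a) (g • b) ↔ E a b) (φ : B' → B) (r : ℝ) (hr : 1 ≤ r)
    (horb : ∀ b, (Nat.card {b' // φ b' ∈ MulAction.orbit Γ b} : ℝ) =
      r * Nat.card (MulAction.orbit Γ b)) (X : Type) [Fintype X] [Nonempty X]
    (G : SimpleGraph X) :
    homDensity (bip E) G ^ r ≤ homDensity (bip fun a b' => E a (φ b')) G := by
  have hX : (0 : ℝ) < Fintype.card (A → X) := by exact_mod_cast Fintype.card_pos
  have h := H655.Orb.core (mv X : Γ → (A → X) ≃ (A → X))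
    (fun _ => 1 / (Fintype.card (A → X) : ℝ)) (fun _ => by positivity)
    (by rw [Finset.sum_const, Finset.card_univ, nsmul_eq_mul]; field_simp)
    (fun _ _ => rfl) (fun x b => tau E G x b) (fun x b => tau_nonneg E G x b)
    (fun g x b => tau_mv E hE G g x b) φ r hr (H655.Orb.count φ r horb)
  have e : ∀ (C : Type) [Fintype C] (F : A → C → Prop), homDensity (bip F) G =
      ∑ x : A → X, 1 / (Fintype.card (A → X) : ℝ) * ∏ b : C, tau F G x b := by
    intro C _ F
    rw [homDensity_bip]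
    unfold tau
    rw [avg, Finset.sum_div]
    refine Finset.sum_congr rfl fun x _ => ?_
    ring
  rw [e, e]
  exact h

theorem card_orb {A B B' Γ : Type} [Fintype A] [Fintype B] [Fintype B'] [Group Γ] [Fintype Γ]
    [MulAction Γ A] [MulAction Γ B] (E : A → B → Prop)
    (hE : ∀ (g : Γ) a b, E (g • a) (g • b) ↔ E a b) (φ : B' → B) (r : ℝ)
    (horb : ∀ b, (Nat.card {b' // φ b' ∈ MulAction.orbit Γ b} : ℝ) =
      r * Nat.card (MulAction.orbit Γ b)) :
    (Nat.card (bip fun a b' => E a (φ b')).edgeSet : ℝ) = Nat.card (bip E).edgeSet * r := by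
  have hc := H655.Orb.count φ r horb
  have hΓ : (0 : ℝ) < Fintype.card Γ := by exact_mod_cast Fintype.card_pos
  rw [card_edges, card_edges]
  set d : B → ℕ := fun b => ∑ a, if E a b then 1 else 0 with hd
  have hinv : ∀ (g : Γ) b, d (g • b) = d b := by
    intro g b
    simp only [hd]
    symm
    refine Fintype.sum_equiv (MulAction.toPerm g) _ _ fun a => ?_
    by_cases h : E a b
    · rw [if_pos h, if_pos (show E (MulAction.toPerm g a) (g • b) from (hE g a b).2 h)]
    · rw [if_neg h, if_neg (show ¬ E (MulAction.toPerm g a) (g • b) from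
        fun h' => h ((hE g a b).1 h'))]
  have h1 : (∑ p : Γ × B', (d (p.1 • φ p.2) : ℝ)) =
      Fintype.card Γ * ∑ b', (d (φ b') : ℝ) := by
    rw [Fintype.sum_prod_type, Finset.sum_congr rfl fun g _ =>
      Finset.sum_congr rfl fun b' _ => by rw [hinv g (φ b')], Finset.sum_const,
      Finset.card_univ, nsmul_eq_mul]
  have h2 : (∑ p : Γ × B', (d (p.1 • φ p.2) : ℝ)) =
      ∑ b, r * Fintype.card Γ * (d b : ℝ) := by
    rw [← Finset.sum_fiberwise (univ : Finset (Γ × B')) (fun p => p.1 • φ p.2)]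
    refine Finset.sum_congr rfl fun b _ => ?_
    rw [Finset.sum_congr rfl (g := fun _ => (d b : ℝ)) fun p hp => by
      rw [(Finset.mem_filter.1 hp).2], Finset.sum_const, nsmul_eq_mul, hc b]
  rw [h1, ← Finset.mul_sum] at h2
  have h3 : (∑ b', (d (φ b') : ℝ)) = r * ∑ b, (d b : ℝ) := by
    have : (Fintype.card Γ : ℝ) * (∑ b', (d (φ b') : ℝ)) =
      Fintype.card Γ * (r * ∑ b, (d b : ℝ)) := by rw [h2]; ring
    exact mul_left_cancel₀ hΓ.ne' this
  have h4 : (((∑ b', d (φ b') : ℕ)) : ℝ) = ((∑ b, d b : ℕ) : ℝ) * r := by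
    push_cast
    rw [h3]; ring
  exact h4

theorem orb_exp {A B B' Γ : Type} [Fintype A] [Fintype B] [Fintype B'] [Group Γ] [Fintype Γ]
    [MulAction Γ A] [MulAction Γ B] (E : A → B → Prop)
    (hE : ∀ (g : Γ) a b, E (g • a) (g • b) ↔ E a b) (φ : B' → B) (r : ℝ) (hr : 1 ≤ r)
    (horb : ∀ b, (Nat.card {b' // φ b' ∈ MulAction.orbit Γ b} : ℝ) =
      r * Nat.card (MulAction.orbit Γ b)) (s : ℝ)
    (h : ∀ (X : Type) [Fintype X] [Nonempty X] (G : SimpleGraph X),
      edgeDensity G ^ s ≤ homDensity (bip E) G)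
    (X : Type) [Fintype X] [Nonempty X] (G : SimpleGraph X) :
    edgeDensity G ^ (s * r) ≤ homDensity (bip fun a b' => E a (φ b')) G := by
  have hp : 0 ≤ edgeDensity G := div_nonneg (by positivity) (by positivity)
  refine le_trans ?_ (orb E hE φ r hr horb X G)
  rw [Real.rpow_mul hp]
  exact Real.rpow_le_rpow (Real.rpow_nonneg hp _) (h X G) (by linarith)

theorem orb_sid {A B B' Γ : Type} [Fintype A] [Fintype B] [Fintype B'] [Group Γ] [Fintype Γ]
    [MulAction Γ A] [MulAction Γ B] (E : A → B → Prop)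
    (hE : ∀ (g : Γ) a b, E (g • a) (g • b) ↔ E a b) (φ : B' → B) (r : ℝ) (hr : 1 ≤ r)
    (horb : ∀ b, (Nat.card {b' // φ b' ∈ MulAction.orbit Γ b} : ℝ) =
      r * Nat.card (MulAction.orbit Γ b)) (h : Sidorenko (bip E)) :
    Sidorenko (bip fun a b' => E a (φ b')) := by
  intro X _ _ G
  rw [← Real.rpow_natCast, card_orb E hE φ r horb]
  refine orb_exp E hE φ r hr horb _ ?_ X G
  intro Y _ _ G
  rw [Real.rpow_natCast]
  exact h Y G

end Vale.Agent.P050.H799
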