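import Vale.Agent.P050.H799.Hom

/-! Semi-covers (helper file for `P050.SemiCovers`). -/

namespace Vale.Agent.P050.H799

open Finset
open scoped Classical

/-- The semi-cover: every vertex `a` of the first part gets the copies `(a, j)`, `j < k a`, every
vertex `b` of the second part the copies `(b, m)`, `m < M`, and `(b, m)` is joined, for every
neighbour `a` of `b`, to exactly one copy of `a`, namely `(a, c b m a)`. -/
def cover {A B : Type} (E : A → B → Prop) (k : A → ℕ) (M : ℕ)
    (c : B → Fin M → ∀ a, Fin (k a)) : (Σ a, Fin (k a)) → (B × Fin M) → Prop :=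
  fun u v => E u.1 v.1 ∧ c v.1 v.2 u.1 = u.2

lemma homDensity_cover {A B X : Type} [Fintype A] [Fintype B] [Fintype X] (E : A → B → Prop)
    (k : A → ℕ) (M : ℕ) (c : B → Fin M → ∀ a, Fin (k a)) (G : SimpleGraph X) :
    homDensity (bip (cover E k M c)) G =
      avg fun x : (∀ a, Fin (k a) → X) => ∏ b, ∏ m, avg fun y =>
        ∏ a, if E a b then ind G (x a (c b m a)) y else 1 := by
  rw [homDensity_bip, ← avg_equiv (Equiv.piCurry (fun a (_ : Fin (k a)) => X))]
  congr 1
  · exact Subsingleton.elim _ _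
  funext x
  rw [Fintype.prod_prod_type]
  refine Finset.prod_congr rfl fun b _ => Finset.prod_congr rfl fun m _ => ?_
  congr 1
  funext y
  rw [Fintype.prod_sigma]
  refine Finset.prod_congr rfl fun a _ => ?_
  by_cases h : E a b
  · rw [if_pos h, Finset.prod_eq_single (c b m a)]
    · simp [cover, h, Equiv.piCurry, Sigma.curry]
    · intro j _ hj
      have : ¬ cover E k M c ⟨a, j⟩ (b, m) := fun h' => hj h'.2.symm
      rw [if_neg this]
    · intro h'; exact absurd (Finset.mem_univ _) h'
  · rw [if_neg h]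
    refine Finset.prod_eq_one fun j _ => ?_
    have : ¬ cover E k M c ⟨a, j⟩ (b, m) := fun h' => h h'.1
    rw [if_neg this]

theorem semi {A B : Type} [Fintype A] [Fintype B] (E : A → B → Prop)
    (k : A → ℕ) (hk : ∀ a, 0 < k a) (M : ℕ) (hM : ∏ a, k a ≤ M)
    (c : B → Fin M → ∀ a, Fin (k a)) (X : Type) [Fintype X] [Nonempty X] (G : SimpleGraph X) :
    homDensity (bip E) G ^ M ≤ homDensity (bip (cover E k M c)) G := by
  rw [homDensity_cover, homDensity_bip]
  exact main k hk (fun b z => avg fun y => ∏ a, if E a b then ind G (z a) y else 1)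
    (fun b z => avg_nonneg fun y => prod_nonneg fun a _ => by
      split_ifs
      · exact ind_nonneg _ _ _
      · exact zero_le_one) M hM c

lemma card_cover {A B : Type} [Fintype A] [Fintype B] (E : A → B → Prop)
    (k : A → ℕ) (M : ℕ) (c : B → Fin M → ∀ a, Fin (k a)) :
    Nat.card (bip (cover E k M c)).edgeSet = Nat.card (bip E).edgeSet * M := by
  rw [card_edges, card_edges, Fintype.sum_prod_type, Finset.sum_mul]
  refine Finset.sum_congr rfl fun b _ => ?_
  have : ∀ m : Fin M, (∑ u : (Σ a, Fin (k a)), if cover E k M c u (b, m) then 1 else 0) =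
      ∑ a, if E a b then 1 else 0 := by
    intro m
    rw [Fintype.sum_sigma]
    refine Finset.sum_congr rfl fun a _ => ?_
    by_cases h : E a b
    · rw [if_pos h, Finset.sum_eq_single (c b m a)]
      · rw [if_pos ⟨h, rfl⟩]
      · intro j _ hj
        have : ¬ cover E k M c ⟨a, j⟩ (b, m) := fun h' => hj h'.2.symm
        rw [if_neg this]
      · intro h'; exact absurd (Finset.mem_univ _) h'
    · rw [if_neg h]
      refine Finset.sum_eq_zero fun j _ => ?_
      have : ¬ cover E k M c ⟨a, j⟩ (b, m) := fun h' => h h'.1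
      rw [if_neg this]
  rw [Finset.sum_congr rfl fun m _ => this m]
  simp [mul_comm]

lemma edgeDensity_nonneg {X : Type} [Fintype X] (G : SimpleGraph X) : 0 ≤ edgeDensity G :=
  div_nonneg (by positivity) (by positivity)

theorem semi_exp {A B : Type} [Fintype A] [Fintype B] (E : A → B → Prop)
    (k : A → ℕ) (hk : ∀ a, 0 < k a) (M : ℕ) (hM : ∏ a, k a ≤ M)
    (c : B → Fin M → ∀ a, Fin (k a)) (φ : ℝ)
    (h : ∀ (X : Type) [Fintype X] [Nonempty X] (G : SimpleGraph X),
      edgeDensity G ^ φ ≤ homDensity (bip E) G)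
    (X : Type) [Fintype X] [Nonempty X] (G : SimpleGraph X) :
    edgeDensity G ^ (φ * M) ≤ homDensity (bip (cover E k M c)) G := by
  refine le_trans ?_ (semi E k hk M hM c X G)
  rw [Real.rpow_mul (edgeDensity_nonneg G), Real.rpow_natCast]
  exact pow_le_pow_left₀ (Real.rpow_nonneg (edgeDensity_nonneg G) _) (h X G) _

theorem semi_sid {A B : Type} [Fintype A] [Fintype B] (E : A → B → Prop)
    (k : A → ℕ) (hk : ∀ a, 0 < k a) (M : ℕ) (hM : ∏ a, k a ≤ M)
    (c : B → Fin M → ∀ a, Fin (k a)) (h : Sidorenko (bip E)) :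
    Sidorenko (bip (cover E k M c)) := by
  intro X _ _ G
  refine le_trans ?_ (semi E k hk M hM c X G)
  rw [card_cover, pow_mul]
  exact pow_le_pow_left₀ (pow_nonneg (edgeDensity_nonneg G) _) (h X G) _

end Vale.Agent.P050.H799
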